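import Vale.Agent.P084.Geom
import Vale.Agent.P084.Chain

/-! The maximal defect of a sphere isometry cannot be positive and attained. -/

namespace Vale.Agent.P084

variable {X Y : Type*} [SeminormedAddCommGroup X] [NormedSpace ℝ X]
  [SeminormedAddCommGroup Y] [NormedSpace ℝ Y]

/-- an isometry of the spheres which is onto up to null vectors -/
structure Iso (f : X → Y) (g : Y → X) : Prop where
  unit : ∀ x, ‖x‖ = 1 → ‖f x‖ = 1
  iso : ∀ x z, ‖x‖ = 1 → ‖z‖ = 1 → ‖f x - f z‖ = ‖x - z‖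
  gunit : ∀ w, ‖w‖ = 1 → ‖g w‖ = 1
  fg : ∀ w, ‖w‖ = 1 → ‖f (g w) - w‖ = 0

omit [NormedSpace ℝ Y] in
theorem null_sub {p q : Y} (h : ‖p - q‖ = 0) (c : Y) : ‖p - c‖ = ‖q - c‖ := by
  have := abs_norm_sub_norm_le (p - c) (q - c)
  rw [sub_sub_sub_cancel_right, h] at this
  have := abs_nonpos_iff.1 this
  linarith

omit [NormedSpace ℝ X] [NormedSpace ℝ Y] in
theorem Iso.giso {f : X → Y} {g : Y → X} (h : Iso f g) {w₁ w₂ : Y} (h₁ : ‖w₁‖ = 1)
    (h₂ : ‖w₂‖ = 1) : ‖g w₁ - g w₂‖ = ‖w₁ - w₂‖ := by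
  rw [← h.iso _ _ (h.gunit _ h₁) (h.gunit _ h₂), null_sub (h.fg _ h₁), norm_sub_rev,
    null_sub (h.fg _ h₂), norm_sub_rev]

theorem chord {u x : X} {T : ℝ} (hT : 0 < T) (hu : ‖u‖ ≤ 1 - T) (hx : ‖x‖ = 1) :
    ‖out u (-dir u x)‖ = 1 ∧ 0 < rad u (-dir u x) ∧
      ‖out u (-dir u x) - u‖ = rad u (-dir u x) ∧
      ‖x - out u (-dir u x)‖ = ‖x - u‖ + rad u (-dir u x) := by
  have f := hT.trans_le (far hu hx)
  have n := dir_norm f
  have e := dir_eq f
  obtain ⟨p, h⟩ := rad_spec (by linarith : ‖u‖ < 1) (by rw [norm_neg, n] : ‖-dir u x‖ = 1)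
  refine ⟨h, p, ?_, ?_⟩
  · rw [out, add_sub_cancel_left, norm_smul, norm_neg, n, mul_one, Real.norm_of_nonneg p.le]
  · have : x - out u (-dir u x) = (‖x - u‖ + rad u (-dir u x)) • dir u x := by
      simp only [out]
      linear_combination (norm := module) e
    rw [this, norm_smul, n, mul_one, Real.norm_of_nonneg (by positivity)]

omit [NormedSpace ℝ X] in
theorem tri (x z u : X) : ‖x - z‖ ≤ ‖x - u‖ + ‖z - u‖ := by
  rw [show x - z = (x - u) - (z - u) by abel]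
  exact norm_sub_le _ _

theorem Iso.lower {f : X → Y} {g : Y → X} (h : Iso f g) {M : ℝ} (hM : 0 ≤ M)
    (bd : ∀ x y τ, ‖x‖ = 1 → ‖y‖ = 1 → (0 : ℝ) ≤ τ → τ ≤ 1 →
      ‖f x - τ • f y‖ ≤ ‖x - τ • y‖ + M)
    (z y : X) (τ : ℝ) (hz : ‖z‖ = 1) (hy : ‖y‖ = 1) (h0 : 0 ≤ τ) (h1 : τ ≤ 1) :
    ‖z - τ • y‖ ≤ ‖f z - τ • f y‖ + M := by
  rcases h1.eq_or_lt with rfl | h1'
  · rw [one_smul, one_smul, h.iso z y hz hy]; linarith
  have hu : ‖τ • y‖ ≤ 1 - (1 - τ) := by
    rw [norm_smul, hy, Real.norm_of_nonneg h0]; linarith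
  obtain ⟨c1, -, c3, c4⟩ := chord (by linarith : 0 < 1 - τ) hu hz
  have k1 := bd _ y τ c1 hy h0 h1
  have k2 := tri (f z) (f (out (τ • y) (-dir (τ • y) z))) (τ • f y)
  rw [h.iso _ _ hz c1] at k2
  linarith

/-- the point opposite to `x` through `v` -/
noncomputable def nxt (f : X → Y) (g : Y → X) (v : Y) (x : X) : X := g (out v (-dir v (f x)))

/-- the return map on directions -/
noncomputable def Tm (f : X → Y) (g : Y → X) (u : X) (v : Y) (e : X) : X :=
  -dir u (nxt f g v (out u e))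

/-- extremal data -/
structure Ext (f : X → Y) (g : Y → X) (M t T : ℝ) (y : X) : Prop extends Iso f g where
  hM : 0 < M
  ht : 0 < t
  hT : 0 < T
  htT : t + T = 1
  hy : ‖y‖ = 1
  bd : ∀ x y τ, ‖x‖ = 1 → ‖y‖ = 1 → (0 : ℝ) ≤ τ → τ ≤ 1 → ‖f x - τ • f y‖ ≤ ‖x - τ • y‖ + M

variable {f : X → Y} {g : Y → X} {M t T : ℝ} {y : X}

theorem Ext.hu (h : Ext f g M t T y) : ‖t • y‖ ≤ 1 - T := by
  rw [norm_smul, h.hy, Real.norm_of_nonneg h.ht.le]; linarith [h.htT]

theorem Ext.hv (h : Ext f g M t T y) : ‖t • f y‖ ≤ 1 - T := by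
  rw [norm_smul, h.unit _ h.hy, Real.norm_of_nonneg h.ht.le]; linarith [h.htT]

theorem Ext.out_unit (h : Ext f g M t T y) {e : X} (he : ‖e‖ = 1) : ‖out (t • y) e‖ = 1 :=
  (rad_spec (by linarith [h.hu, h.hT]) he).2

theorem Ext.nxt_unit (h : Ext f g M t T y) {x : X} (hx : ‖x‖ = 1) :
    ‖nxt f g (t • f y) x‖ = 1 :=
  h.gunit _ (chord h.hT h.hv (h.unit _ hx)).1

theorem Ext.Tm_unit (h : Ext f g M t T y) {e : X} (he : ‖e‖ = 1) :
    ‖Tm f g (t • y) (t • f y) e‖ = 1 := by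
  rw [Tm, norm_neg]
  exact dir_norm (h.hT.trans_le (far h.hu (h.nxt_unit (h.out_unit he))))

theorem Ext.Tm_lip (h : Ext f g M t T y) (e₁ e₂ : X) (h₁ : ‖e₁‖ = 1) (h₂ : ‖e₂‖ = 1) :
    ‖Tm f g (t • y) (t • f y) e₁ - Tm f g (t • y) (t • f y) e₂‖ ≤
      (2 / T * ((4 / T + 2) * (2 / T * (4 / T + 2)))) * ‖e₁ - e₂‖ := by
  have hT := h.hT
  have o₁ := h.out_unit h₁
  have o₂ := h.out_unit h₂
  have k1 := out_lip hT h.hu h₁ h₂
  have k2 := dir_lip hT h.hv (h.unit _ o₁) (h.unit _ o₂)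
  rw [h.iso _ _ o₁ o₂] at k2
  have d₁ : ‖-dir (t • f y) (f (out (t • y) e₁))‖ = 1 := by
    rw [norm_neg]; exact dir_norm (hT.trans_le (far h.hv (h.unit _ o₁)))
  have d₂ : ‖-dir (t • f y) (f (out (t • y) e₂))‖ = 1 := by
    rw [norm_neg]; exact dir_norm (hT.trans_le (far h.hv (h.unit _ o₂)))
  have k3 := out_lip hT h.hv d₁ d₂
  rw [neg_sub_neg, norm_sub_rev (dir _ _)] at k3
  have k4 := dir_lip hT h.hu (h.nxt_unit o₁) (h.nxt_unit o₂)
  rw [nxt, nxt, h.giso (chord hT h.hv (h.unit _ o₁)).1 (chord hT h.hv (h.unit _ o₂)).1] at k4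
  rw [Tm, Tm, neg_sub_neg, norm_sub_rev, nxt, nxt]
  refine k4.trans ?_
  rw [mul_assoc, mul_assoc, mul_assoc]
  gcongr
  refine k3.trans ?_
  gcongr
  refine k2.trans ?_
  gcongr

theorem Ext.tight (h : Ext f g M t T y) {x : X} (hx : ‖x‖ = 1)
    (hp : ‖f x - t • f y‖ = ‖x - t • y‖ + M) :
    ‖f (nxt f g (t • f y) x) - t • f y‖ = rad (t • f y) (-dir (t • f y) (f x)) ∧
    ‖nxt f g (t • f y) x - t • y‖ = rad (t • f y) (-dir (t • f y) (f x)) + M ∧
    ‖x - nxt f g (t • f y) x‖ = ‖x - t • y‖ + ‖nxt f g (t • f y) x - t • y‖ := by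
  obtain ⟨c1, -, c3, c4⟩ := chord h.hT h.hv (h.unit _ hx)
  have hz := h.nxt_unit hx
  have k1 : ‖f (nxt f g (t • f y) x) - t • f y‖ = rad (t • f y) (-dir (t • f y) (f x)) := by
    rw [nxt, null_sub (h.fg _ c1), c3]
  have k2 : ‖x - nxt f g (t • f y) x‖ = ‖f x - t • f y‖ + rad (t • f y) (-dir (t • f y) (f x)) := by
    rw [← h.iso _ _ hx hz, norm_sub_rev, nxt, null_sub (h.fg _ c1), norm_sub_rev, c4]
  have k3 := tri x (nxt f g (t • f y) x) (t • y)
  have k4 := h.toIso.lower h.hM.le h.bd _ y t hz h.hy h.ht.le (by linarith [h.htT, h.hT])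
  exact ⟨k1, by linarith, by linarith⟩

theorem Ext.out_dist (h : Ext f g M t T y) {e : X} (he : ‖e‖ = 1) :
    ‖out (t • y) e - t • y‖ = rad (t • y) e := by
  rw [out, add_sub_cancel_left, norm_smul, he, mul_one,
    Real.norm_of_nonneg (rad_spec (by linarith [h.hu, h.hT]) he).1.le]

theorem Ext.diff (h : Ext f g M t T y) {e : X} (he : ‖e‖ = 1) (w : X) :
    out (t • y) w - nxt f g (t • f y) (out (t • y) e) = rad (t • y) w • w +
      ‖nxt f g (t • f y) (out (t • y) e) - t • y‖ • Tm f g (t • y) (t • f y) e := by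
  have := dir_eq (h.hT.trans_le (far h.hu (h.nxt_unit (h.out_unit he))))
  rw [Tm]
  conv_lhs => rw [out]
  linear_combination (norm := module) (-1 : ℝ) • this

theorem Ext.adj (h : Ext f g M t T y) (e : X) (he : ‖e‖ = 1)
    (hp : ‖f (out (t • y) e) - t • f y‖ = ‖out (t • y) e - t • y‖ + M) :
    ‖e + Tm f g (t • y) (t • f y) e‖ = 2 := by
  have k := (h.tight (h.out_unit he) hp).2.2
  rw [h.diff he, h.out_dist he] at k
  exact adj_of_comb he (h.Tm_unit he) (rad_spec (by linarith [h.hu, h.hT]) he).1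
    (h.hT.trans_le (far h.hu (h.nxt_unit (h.out_unit he)))) k

theorem Ext.clos (h : Ext f g M t T y) (e w : X) (he : ‖e‖ = 1)
    (hp : ‖f (out (t • y) e) - t • f y‖ = ‖out (t • y) e - t • y‖ + M) (hw : ‖w‖ = 1)
    (ha : ‖w + Tm f g (t • y) (t • f y) e‖ = 2) :
    ‖f (out (t • y) w) - t • f y‖ = ‖out (t • y) w - t • y‖ + M := by
  obtain ⟨k1, k2, -⟩ := h.tight (h.out_unit he) hp
  have k3 := adj_comb hw (h.Tm_unit he) ha
    (rad_spec (u := t • y) (by linarith [h.hu, h.hT]) hw).1.le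
    (norm_nonneg (nxt f g (t • f y) (out (t • y) e) - t • y))
  rw [← h.diff he, ← h.iso _ _ (h.out_unit hw) (h.nxt_unit (h.out_unit he))] at k3
  have k4 := tri (f (out (t • y) w)) (f (nxt f g (t • f y) (out (t • y) e))) (t • f y)
  have k5 := h.bd _ y t (h.out_unit hw) h.hy h.ht.le (by linarith [h.htT, h.hT])
  rw [h.out_dist hw] at k5 ⊢
  linarith

theorem Ext.final (h : Ext f g M t T y) {e : X} (he : ‖e‖ = 1)
    (hp : ‖f (out (t • y) e) - t • f y‖ = ‖out (t • y) e - t • y‖ + M) {η : ℝ} (hη : 0 ≤ η)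
    (s1 : 8 * η ≤ M * t) (s2 : 4 * η ≤ T)
    (hfix : ∀ σ : ℝ, |σ| ≤ 1 / T →
      ‖e + σ • y‖ ≤ ‖Tm f g (t • y) (t • f y) e + σ • y‖ + η * M / 2) : False := by
  have hT := h.hT
  have ht := h.ht
  have hM := h.hM
  have htT := h.htT
  set x := out (t • y) e with hx
  have ux : ‖x‖ = 1 := h.out_unit he
  obtain ⟨k1, k2, k3⟩ := h.tight ux hp
  obtain ⟨c1, c2, -, -⟩ := chord hT h.hv (h.unit _ ux)
  set z := nxt f g (t • f y) x with hz
  have uz : ‖z‖ = 1 := h.nxt_unit ux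
  set e' := dir (t • f y) (f x) with he'
  set b := rad (t • f y) (-e') with hb
  set a := rad (t • y) e with ha
  set p := Tm f g (t • y) (t • f y) e with hp'
  have a0 : 0 < a := (rad_spec (by linarith [h.hu]) he).1
  have da : ‖x - t • y‖ = a := h.out_dist he
  have fx0 := hT.trans_le (far h.hv (h.unit _ ux))
  have ex : x = t • y + a • e := rfl
  have efx : f x = t • f y + (a + M) • e' := by
    have := dir_eq fx0
    rwa [hp, da] at this
  have ez : z = t • y - (b + M) • p := by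
    have := dir_eq (hT.trans_le (far h.hu uz))
    rw [k2] at this
    rw [hp', Tm]
    linear_combination (norm := module) this
  have efz : ∀ c, ‖f z - c‖ = ‖t • f y + b • (-e') - c‖ := null_sub (h.fg _ c1)
  have bT : T ≤ b + M := k2 ▸ far h.hu uz
  have hd : a + b + M ≤ 2 := by linarith [norm_sub_le x z]
  have hfx : ∀ r : ℝ, -t ≤ r → r ≤ T → ‖(b + M) • e + r • y‖ ≤ ‖z - (t + r) • y‖ + η * M := by
    intro r r0 r1
    have b0 : 0 < b + M := by linarith
    have hσ : |r / (b + M)| ≤ 1 / T := by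
      rw [abs_div, abs_of_pos b0]
      gcongr
      exact abs_le.2 ⟨by linarith, by linarith⟩
    have k := mul_le_mul_of_nonneg_left (hfix _ hσ) b0.le
    have sc : ∀ w : X, (b + M) * ‖w + (r / (b + M)) • y‖ = ‖(b + M) • w + r • y‖ := by
      intro w
      rw [← Real.norm_of_nonneg b0.le, ← norm_smul, Real.norm_of_nonneg b0.le, smul_add, smul_smul,
        mul_div_cancel₀ _ b0.ne']
    rw [mul_add, sc, sc] at k
    have e1 : z - (t + r) • y = -((b + M) • p + r • y) := by rw [ez]; module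
    have k' : (b + M) * (η * M / 2) ≤ 2 * (η * M / 2) := by gcongr; linarith
    rw [e1, norm_neg]
    linarith
  have hfz : ∀ r : ℝ, ‖f z - (t + r) • f y‖ = ‖b • e' + r • f y‖ := by
    intro r
    rw [efz, ← norm_neg]
    congr 1
    module
  refine steady_false (e := e) (y := y) (e' := e') (y' := f y) (a := a) (b := b) he h.hy
    (dir_norm fx0) (h.unit _ h.hy) a0 c2 hM hη ht hT htT hd s1 s2 ?_ ?_ ?_ ?_ ?_ ?_ ?_ ?_
  · rw [add_comm, ← ex, ux]
  · rw [add_comm, ← efx, h.unit _ ux]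
  · rw [← c1, ← norm_neg]
    congr 1
    simp only [out]
    module
  · have := hfx (-t) le_rfl (by linarith)
    rw [add_neg_cancel, zero_smul, sub_zero, uz, neg_smul, ← smul_neg] at this
    exact this
  · intro r r0 r1
    have := h.bd x y (t - r) ux h.hy (by linarith) (by linarith)
    rw [show f x - (t - r) • f y = (a + M) • e' + r • f y by rw [efx]; module,
      show x - (t - r) • y = a • e + r • y by rw [ex]; module] at this
    exact this
  · have := h.iso x y ux h.hy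
    have hT' : T = 1 - t := by linarith
    rw [show f x - f y = (a + M) • e' + T • (-f y) by rw [efx, hT']; module,
      show x - y = a • e + T • (-y) by rw [ex, hT']; module] at this
    exact this
  · intro r r0 r1
    have k4 := hfx r r0 r1
    have k5 := h.toIso.lower hM.le h.bd z y (t + r) uz h.hy (by linarith) (by linarith)
    rw [hfz] at k5
    linarith
  · have k4 := hfx T (by linarith) le_rfl
    have k5 := hfz T
    rw [htT, one_smul] at k4 k5
    rw [h.iso z y uz h.hy] at k5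
    linarith

theorem core (h : Iso f g) (hM : 0 < M)
    (bd : ∀ x y τ, ‖x‖ = 1 → ‖y‖ = 1 → (0 : ℝ) ≤ τ → τ ≤ 1 →
      ‖f x - τ • f y‖ ≤ ‖x - τ • y‖ + M)
    {x : X} (hx : ‖x‖ = 1) (hy : ‖y‖ = 1) (h0 : 0 ≤ t) (h1 : t ≤ 1)
    (hmax : ‖f x - t • f y‖ = ‖x - t • y‖ + M) : False := by
  have ht : 0 < t := by
    refine lt_of_le_of_ne h0 ?_
    rintro rfl
    rw [zero_smul, zero_smul, sub_zero, sub_zero, h.unit _ hx, hx] at hmax
    linarith
  have hT : 0 < 1 - t := by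
    refine sub_pos.2 (lt_of_le_of_ne h1 ?_)
    rintro rfl
    rw [one_smul, one_smul, h.iso _ _ hx hy] at hmax
    linarith
  have E : Ext f g M t (1 - t) y := ⟨h, hM, ht, hT, by ring, hy, bd⟩
  obtain ⟨A, hcv, hne, hA, hTA⟩ := exists_face (Tm f g (t • y) (t • f y))
    (fun e => ‖f (out (t • y) e) - t • f y‖ = ‖out (t • y) e - t • y‖ + M) E.Tm_lip
    (fun e he => E.Tm_unit he) E.adj E.clos (dir_norm (hT.trans_le (far E.hu hx)))
    (by simp only [out_dir hT E.hu hx]; exact hmax)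
  set η := min (M * t / 8) ((1 - t) / 4) with hη
  have hη0 : 0 < η := lt_min (by positivity) (by positivity)
  obtain ⟨e, he, hfix⟩ := fix_line hcv hne (fun e he => (hA e he).1) _ hTA E.Tm_lip hy
    (1 / (1 - t)) (ε := η * M / 8) (by positivity)
  refine E.final (hA e he).1 (hA e he).2 hη0.le ?_ ?_ (fun σ hσ => by linarith [hfix σ hσ])
  · linarith [min_le_left (M * t / 8) ((1 - t) / 4)]
  · linarith [min_le_right (M * t / 8) ((1 - t) / 4)]

end Vale.Agent.P084
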