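import Vale.Agent.P084.Sperner

/-! Chords of the unit ball, and an approximate fixed point lemma for convex observables. -/

namespace Vale.Agent.P084

variable {V : Type*} [SeminormedAddCommGroup V] [NormedSpace ℝ V]

theorem exists_rad {u e : V} (hu : ‖u‖ < 1) (he : ‖e‖ = 1) : ∃ a : ℝ, 0 < a ∧ ‖u + a • e‖ = 1 := by
  have hc : Continuous fun c : ℝ => ‖u + c • e‖ := by fun_prop
  have h2 : 1 ≤ ‖u + (2 : ℝ) • e‖ := by
    have h := norm_sub_le (u + (2 : ℝ) • e) u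
    rw [add_sub_cancel_left, norm_smul, he, Real.norm_of_nonneg (by norm_num)] at h
    linarith
  obtain ⟨a, ha, hae⟩ := intermediate_value_Icc (by norm_num : (0 : ℝ) ≤ 2) hc.continuousOn
    (show (1 : ℝ) ∈ Set.Icc _ _ from ⟨by simpa using hu.le, h2⟩)
  refine ⟨a, lt_of_le_of_ne ha.1 ?_, hae⟩
  rintro rfl
  simp only [zero_smul, add_zero] at hae
  linarith

/-- distance from an inner point to the sphere in a given direction -/
noncomputable def rad (u e : V) : ℝ := Classical.epsilon fun a : ℝ => 0 < a ∧ ‖u + a • e‖ = 1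

theorem rad_spec {u e : V} (hu : ‖u‖ < 1) (he : ‖e‖ = 1) : 0 < rad u e ∧ ‖u + rad u e • e‖ = 1 :=
  Classical.epsilon_spec (exists_rad hu he)

theorem rad_le {u e : V} {a : ℝ} (hu : ‖u‖ < 1) (he : ‖e‖ = 1) (ha : 0 < a)
    (h : ‖u + a • e‖ = 1) : a ≤ 2 := by
  have h1 := norm_sub_le (u + a • e) u
  rw [add_sub_cancel_left, norm_smul, he, Real.norm_of_nonneg ha.le, h] at h1
  linarith

theorem rad_sub {u e₁ e₂ : V} {a₁ a₂ T : ℝ} (hT : 0 < T) (hu : ‖u‖ ≤ 1 - T) (he₁ : ‖e₁‖ = 1)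
    (he₂ : ‖e₂‖ = 1) (p₁ : 0 < a₁) (p₂ : 0 < a₂) (h₁ : ‖u + a₁ • e₁‖ = 1)
    (h₂ : ‖u + a₂ • e₂‖ = 1) : a₁ - a₂ ≤ 4 / T * ‖e₁ - e₂‖ := by
  rcases le_total a₁ a₂ with h | h
  · have : 0 ≤ 4 / T * ‖e₁ - e₂‖ := by positivity
    linarith
  have l₁ := rad_le (by linarith) he₁ p₁ h₁
  have l₂ := rad_le (by linarith) he₂ p₂ h₂
  have e : a₁ • (u + a₂ • e₂) = (a₁ - a₂) • u + a₂ • (u + a₁ • e₁) + (a₁ * a₂) • (e₂ - e₁) := by
    module
  have k : a₁ ≤ (a₁ - a₂) * ‖u‖ + a₂ + a₁ * a₂ * ‖e₁ - e₂‖ := by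
    calc a₁ = ‖a₁ • (u + a₂ • e₂)‖ := by rw [norm_smul, h₂, Real.norm_of_nonneg p₁.le, mul_one]
      _ ≤ ‖(a₁ - a₂) • u‖ + ‖a₂ • (u + a₁ • e₁)‖ + ‖(a₁ * a₂) • (e₂ - e₁)‖ := by
          rw [e]; exact norm_add₃_le
      _ = _ := by
          rw [norm_smul, norm_smul, norm_smul, h₁, Real.norm_of_nonneg p₂.le,
            Real.norm_of_nonneg (by linarith), Real.norm_of_nonneg (by positivity), mul_one,
            norm_sub_rev]
  have k2 : (a₁ - a₂) * ‖u‖ ≤ (a₁ - a₂) * (1 - T) := by gcongr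
  have k3 : a₁ * a₂ * ‖e₁ - e₂‖ ≤ 2 * 2 * ‖e₁ - e₂‖ := by gcongr
  rw [div_mul_eq_mul_div, le_div_iff₀ hT]
  linarith

/-- end point of the ray -/
noncomputable def out (u e : V) : V := u + rad u e • e

theorem out_lip {u e₁ e₂ : V} {T : ℝ} (hT : 0 < T) (hu : ‖u‖ ≤ 1 - T) (he₁ : ‖e₁‖ = 1)
    (he₂ : ‖e₂‖ = 1) : ‖out u e₁ - out u e₂‖ ≤ (4 / T + 2) * ‖e₁ - e₂‖ := by
  obtain ⟨p₁, h₁⟩ := rad_spec (by linarith : ‖u‖ < 1) he₁
  obtain ⟨p₂, h₂⟩ := rad_spec (by linarith : ‖u‖ < 1) he₂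
  have k1 := rad_sub hT hu he₁ he₂ p₁ p₂ h₁ h₂
  have k2 := rad_sub hT hu he₂ he₁ p₂ p₁ h₂ h₁
  rw [norm_sub_rev] at k2
  have l₂ := rad_le (by linarith) he₂ p₂ h₂
  have e : out u e₁ - out u e₂ = (rad u e₁ - rad u e₂) • e₁ + rad u e₂ • (e₁ - e₂) := by
    simp only [out]; module
  rw [e]
  refine (norm_add_le _ _).trans ?_
  rw [norm_smul, norm_smul, he₁, mul_one, Real.norm_of_nonneg p₂.le, Real.norm_eq_abs]
  have k3 : |rad u e₁ - rad u e₂| ≤ 4 / T * ‖e₁ - e₂‖ := abs_le.2 ⟨by linarith, k1⟩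
  have k4 : rad u e₂ * ‖e₁ - e₂‖ ≤ 2 * ‖e₁ - e₂‖ := by gcongr
  linarith

/-- direction from an inner point -/
noncomputable def dir (u x : V) : V := ‖x - u‖⁻¹ • (x - u)

omit [NormedSpace ℝ V] in
theorem far {u x : V} {T : ℝ} (hu : ‖u‖ ≤ 1 - T) (hx : ‖x‖ = 1) : T ≤ ‖x - u‖ := by
  have := norm_sub_norm_le x u
  linarith

theorem dir_norm {u x : V} (h : 0 < ‖x - u‖) : ‖dir u x‖ = 1 := by
  rw [dir, norm_smul, norm_inv, norm_norm, inv_mul_cancel₀ h.ne']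

theorem dir_eq {u x : V} (h : 0 < ‖x - u‖) : x = u + ‖x - u‖ • dir u x := by
  rw [dir, smul_smul, mul_inv_cancel₀ h.ne', one_smul, add_sub_cancel]

theorem dir_lip {u x₁ x₂ : V} {T : ℝ} (hT : 0 < T) (hu : ‖u‖ ≤ 1 - T) (h₁ : ‖x₁‖ = 1)
    (h₂ : ‖x₂‖ = 1) : ‖dir u x₁ - dir u x₂‖ ≤ 2 / T * ‖x₁ - x₂‖ := by
  have f₁ := far hu h₁
  have f₂ := far hu h₂
  have e₁ := dir_eq (hT.trans_le f₁)
  have e₂ := dir_eq (hT.trans_le f₂)
  have n₂ := dir_norm (hT.trans_le f₂)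
  have e : ‖x₁ - u‖ • (dir u x₁ - dir u x₂) = (x₁ - x₂) + (‖x₂ - u‖ - ‖x₁ - u‖) • dir u x₂ := by
    linear_combination (norm := module) e₂ - e₁
  have k : ‖x₁ - u‖ * ‖dir u x₁ - dir u x₂‖ ≤ 2 * ‖x₁ - x₂‖ := by
    have k1 : |‖x₂ - u‖ - ‖x₁ - u‖| ≤ ‖x₁ - x₂‖ := by
      refine (abs_norm_sub_norm_le _ _).trans ?_
      rw [sub_sub_sub_cancel_right, norm_sub_rev]
    calc _ = ‖‖x₁ - u‖ • (dir u x₁ - dir u x₂)‖ := by rw [norm_smul, norm_norm]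
      _ ≤ ‖x₁ - x₂‖ + ‖(‖x₂ - u‖ - ‖x₁ - u‖) • dir u x₂‖ := by rw [e]; exact norm_add_le _ _
      _ ≤ _ := by rw [norm_smul, n₂, mul_one, Real.norm_eq_abs]; linarith
  rw [div_mul_eq_mul_div, le_div_iff₀ hT]
  have : ‖dir u x₁ - dir u x₂‖ * T ≤ ‖dir u x₁ - dir u x₂‖ * ‖x₁ - u‖ := by gcongr
  linarith

theorem out_dir {u x : V} {T : ℝ} (hT : 0 < T) (hu : ‖u‖ ≤ 1 - T) (hx : ‖x‖ = 1) :
    out u (dir u x) = x := by
  have f := hT.trans_le (far hu hx)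
  have n := dir_norm f
  have e := dir_eq f
  obtain ⟨p, h⟩ := rad_spec (by linarith : ‖u‖ < 1) n
  have k1 := rad_sub hT hu n n p f h (by rw [← e, hx])
  have k2 := rad_sub hT hu n n f p (by rw [← e, hx]) h
  rw [sub_self, norm_zero, mul_zero] at k1 k2
  rw [out, show rad u (dir u x) = ‖x - u‖ by linarith, ← e]

theorem adj_comb {e w : V} (he : ‖e‖ = 1) (hw : ‖w‖ = 1) (h : ‖e + w‖ = 2) {α β : ℝ} (hα : 0 ≤ α)
    (hβ : 0 ≤ β) : ‖α • e + β • w‖ = α + β := by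
  apply le_antisymm
  · refine (norm_add_le _ _).trans ?_
    rw [norm_smul, norm_smul, he, hw, Real.norm_of_nonneg hα, Real.norm_of_nonneg hβ]
    linarith
  · have e1 : (α + β) • (e + w) = (α • e + β • w) + β • e + α • w := by module
    have k : (α + β) * 2 ≤ ‖α • e + β • w‖ + β + α := by
      calc (α + β) * 2 = ‖(α + β) • (e + w)‖ := by
            rw [norm_smul, h, Real.norm_of_nonneg (by positivity)]
        _ ≤ ‖α • e + β • w‖ + ‖β • e‖ + ‖α • w‖ := by rw [e1]; exact norm_add₃_le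
        _ = _ := by
            rw [norm_smul, norm_smul, he, hw, Real.norm_of_nonneg hα, Real.norm_of_nonneg hβ,
              mul_one, mul_one]
    linarith

theorem adj_of_comb {e w : V} (he : ‖e‖ = 1) (hw : ‖w‖ = 1) {α β : ℝ} (hα : 0 < α)
    (hβ : 0 < β) (h : ‖α • e + β • w‖ = α + β) : ‖e + w‖ = 2 := by
  apply le_antisymm
  · linarith [norm_add_le e w]
  rcases le_total α β with hab | hab
  · have e1 : α • e + β • w = α • (e + w) + (β - α) • w := by module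
    have k := norm_add_le (α • (e + w)) ((β - α) • w)
    rw [← e1, h, norm_smul, norm_smul, hw, Real.norm_of_nonneg hα.le,
      Real.norm_of_nonneg (by linarith)] at k
    exact le_of_mul_le_mul_left (by linarith) hα
  · have e1 : α • e + β • w = β • (e + w) + (α - β) • e := by module
    have k := norm_add_le (β • (e + w)) ((α - β) • e)
    rw [← e1, h, norm_smul, norm_smul, he, Real.norm_of_nonneg hβ.le,
      Real.norm_of_nonneg (by linarith)] at k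
    exact le_of_mul_le_mul_left (by linarith) hβ

/-- a maximal face which is invariant -/
theorem exists_face (Tm : V → V) (Pr : V → Prop) {L : ℝ}
    (hlip : ∀ e₁ e₂, ‖e₁‖ = 1 → ‖e₂‖ = 1 → ‖Tm e₁ - Tm e₂‖ ≤ L * ‖e₁ - e₂‖)
    (hunit : ∀ e, ‖e‖ = 1 → ‖Tm e‖ = 1)
    (hadj : ∀ e, ‖e‖ = 1 → Pr e → ‖e + Tm e‖ = 2)
    (hcl : ∀ e w, ‖e‖ = 1 → Pr e → ‖w‖ = 1 → ‖w + Tm e‖ = 2 → Pr w)
    {e₀ : V} (h0 : ‖e₀‖ = 1) (hp : Pr e₀) :
    ∃ A : Set V, Convex ℝ A ∧ A.Nonempty ∧ (∀ e ∈ A, ‖e‖ = 1 ∧ Pr e) ∧ ∀ e ∈ A, Tm e ∈ A := by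
  let S : Set (Set V) := {A | Convex ℝ A ∧ ∀ e ∈ A, ‖e‖ = 1}
  obtain ⟨A, hA0, hA⟩ := zorn_subset_nonempty S (fun c hc hch hne => by
    refine ⟨⋃₀ c, ⟨hch.directedOn.convex_sUnion fun B hB => (hc hB).1, ?_⟩,
      fun s hs => Set.subset_sUnion_of_mem hs⟩
    rintro e ⟨B, hB, he⟩
    exact (hc hB).2 e he) {Tm e₀} ⟨convex_singleton _, by simpa using hunit e₀ h0⟩
  have hm : Tm e₀ ∈ A := hA0 rfl
  have hcv : Convex ℝ A := hA.prop.1
  have hu : ∀ e ∈ A, ‖e‖ = 1 := hA.prop.2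
  have hP : ∀ e ∈ A, Pr e := by
    intro e he
    refine hcl e₀ e h0 hp (hu e he) ?_
    have := hu _ (hcv he hm (by norm_num : (0 : ℝ) ≤ 1 / 2) (by norm_num : (0 : ℝ) ≤ 1 / 2)
      (by norm_num))
    exact adj_of_comb (hu e he) (hu _ hm) (by norm_num : (0 : ℝ) < 1 / 2)
      (by norm_num : (0 : ℝ) < 1 / 2) (by rw [this]; norm_num)
  refine ⟨A, hcv, ⟨_, hm⟩, fun e he => ⟨hu e he, hP e he⟩, ?_⟩
  intro e he
  have key : ∀ w ∈ A, ‖w + Tm e‖ = 2 := by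
    intro w hw
    apply le_antisymm
    · linarith [norm_add_le w (Tm e), hu w hw, hunit e (hu e he)]
    have hL : ∀ s : ℝ, 0 < s → s ≤ 1 → 2 ≤ ‖w + Tm e‖ + s * (|L| * 2) := by
      intro s s0 s1
      have hs : (1 - s) • e + s • w ∈ A := hcv he hw (by linarith) s0.le (by ring)
      set es := (1 - s) • e + s • w with hes
      have k1 := hadj es (hu _ hs) (hP _ hs)
      have n1 := hunit es (hu _ hs)
      have e1 : es + Tm es = (1 - s) • (e + Tm es) + s • (w + Tm es) := by rw [hes]; module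
      have k2 := norm_add_le ((1 - s) • (e + Tm es)) (s • (w + Tm es))
      rw [← e1, k1, norm_smul, norm_smul, Real.norm_of_nonneg (by linarith),
        Real.norm_of_nonneg s0.le] at k2
      have k3 : ‖e + Tm es‖ ≤ 2 := by linarith [norm_add_le e (Tm es), hu e he]
      have k4 : (1 - s) * ‖e + Tm es‖ ≤ (1 - s) * 2 := by gcongr
      have k5 : 2 ≤ ‖w + Tm es‖ := le_of_mul_le_mul_left (by linarith) s0
      have k6 := hlip es e (hu _ hs) (hu e he)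
      have e2 : es - e = s • (w - e) := by rw [hes]; module
      have k7 : ‖w - e‖ ≤ 2 := by linarith [norm_sub_le w e, hu e he, hu w hw]
      rw [e2, norm_smul, Real.norm_of_nonneg s0.le] at k6
      have k8 : L * (s * ‖w - e‖) ≤ |L| * (s * 2) := by gcongr; exact le_abs_self L
      have k9 : ‖w + Tm es‖ ≤ ‖w + Tm e‖ + ‖Tm es - Tm e‖ := by
        rw [show w + Tm es = (w + Tm e) + (Tm es - Tm e) by abel]; exact norm_add_le _ _
      linarith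
    apply le_of_forall_pos_le_add
    intro δ hδ
    have hc : 0 < |L| * 2 + 1 := by positivity
    have := hL (min 1 (δ / (|L| * 2 + 1))) (lt_min one_pos (by positivity)) (min_le_left _ _)
    have k : min 1 (δ / (|L| * 2 + 1)) * (|L| * 2) ≤ δ / (|L| * 2 + 1) * (|L| * 2 + 1) := by
      gcongr
      · exact min_le_right _ _
      · linarith
    rw [div_mul_cancel₀ _ hc.ne'] at k
    linarith
  have hB : convexJoin ℝ A {Tm e} ∈ S := by
    refine ⟨hcv.convexJoin (convex_singleton _), ?_⟩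
    intro x hx
    obtain ⟨w, hw, z, hz, α, β, hα, hβ, hab, rfl⟩ := mem_convexJoin.1 hx
    obtain rfl : z = Tm e := hz
    rw [adj_comb (hu w hw) (hunit e (hu e he)) (key w hw) hα hβ, hab]
  exact hA.le_of_ge hB (subset_convexJoin_left (Set.singleton_nonempty _))
    (subset_convexJoin_right ⟨_, he⟩ rfl)

/-- approximate fixed point for finitely many convex observables -/
theorem fix_fin {A : Set V} (hcv : Convex ℝ A) (hne : A.Nonempty) (hu : ∀ e ∈ A, ‖e‖ = 1)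
    (Tm : V → V) (hT : ∀ e ∈ A, Tm e ∈ A) {L : ℝ}
    (hlip : ∀ e₁ e₂, ‖e₁‖ = 1 → ‖e₂‖ = 1 → ‖Tm e₁ - Tm e₂‖ ≤ L * ‖e₁ - e₂‖)
    {ι : Type*} [Fintype ι] (p : ι → V) {ε : ℝ} (hε : 0 < ε) :
    ∃ e ∈ A, ∀ i, ‖e + p i‖ ≤ ‖Tm e + p i‖ + 2 * ε := by
  classical
  let Φ : V → ι → ℝ := fun e i => ‖e + p i‖
  have hb : Bornology.IsBounded (Φ '' A) := by
    refine (Metric.isBounded_closedBall (x := (0 : ι → ℝ)) (r := 1 + ‖p‖)).subset ?_
    rintro _ ⟨e, he, rfl⟩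
    rw [mem_closedBall_zero_iff, pi_norm_le_iff_of_nonneg (by positivity)]
    intro i
    simp only [Φ, norm_norm]
    linarith [norm_add_le e (p i), hu e he, norm_le_pi_norm p i]
  have htb : TotallyBounded (Φ '' A) := hb.isCompact_closure.totallyBounded.subset subset_closure
  obtain ⟨s, hs, hfin, hcov⟩ := Metric.finite_approx_of_totallyBounded htb ε hε
  have hsne : s.Nonempty := by
    obtain ⟨e, he⟩ := hne
    obtain ⟨q, hq, -⟩ := Set.mem_iUnion₂.1 (hcov ⟨e, he, rfl⟩)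
    exact ⟨q, hq⟩
  obtain ⟨m, q, -, hq⟩ := hfin.fin_param
  obtain ⟨n, rfl⟩ : ∃ n, m = n + 1 := by
    rcases m with _ | n
    · rw [← hq] at hsne
      simp at hsne
    · exact ⟨n, rfl⟩
  have : ∀ j, ∃ e ∈ A, Φ e = q j := fun j => hs (by rw [← hq]; exact ⟨j, rfl⟩)
  choose E hE hEq using this
  let pt : (Fin (n + 1) → ℝ) → V := fun w => ∑ j, w j • E j
  have hpt : ∀ w : Fin (n + 1) → ℝ, (∀ i, 0 ≤ w i) → ∑ i, w i = 1 → pt w ∈ A := fun w h0 h1 =>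
    hcv.sum_mem (fun i _ => h0 i) h1 (fun i _ => hE i)
  by_contra hcon
  push Not at hcon
  have : ∀ w : Fin (n + 1) → ℝ, ∃ j, (∀ i, 0 ≤ w i) → ∑ i, w i = 1 →
      0 < w j ∧ ∃ i, ‖Tm (pt w) + p i‖ + 2 * ε < ‖E j + p i‖ := by
    intro w
    by_cases hw : (∀ i, 0 ≤ w i) ∧ ∑ i, w i = 1
    swap
    · exact ⟨0, fun h0 h1 => absurd ⟨h0, h1⟩ hw⟩
    obtain ⟨i, hi⟩ := hcon _ (hpt w hw.1 hw.2)
    by_contra hc
    push Not at hc
    have e1 : pt w + p i = ∑ j, w j • (E j + p i) := by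
      simp only [smul_add, Finset.sum_add_distrib, ← Finset.sum_smul, hw.2, one_smul, pt]
    have k : ‖pt w + p i‖ ≤ ∑ j, w j * (‖Tm (pt w) + p i‖ + 2 * ε) := by
      rw [e1]
      refine (norm_sum_le _ _).trans (Finset.sum_le_sum fun j _ => ?_)
      rw [norm_smul, Real.norm_of_nonneg (hw.1 j)]
      rcases (hw.1 j).eq_or_lt with h | h
      · rw [← h, zero_mul, zero_mul]
      · exact mul_le_mul_of_nonneg_left ((hc j).2.2 h i) h.le
    rw [← Finset.sum_mul, hw.2, one_mul] at k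
    linarith
  choose lab hlab using this
  have hc : 0 < (|L| + 1) * (n + 1) := by positivity
  obtain ⟨W, hW, hcl⟩ := approx_sperner n (δ := ε / ((|L| + 1) * (n + 1))) (by positivity) lab
    (fun w h0 h1 => (hlab w h0 h1).1)
  have m0 := hpt _ (hW 0).1 (hW 0).2.1
  obtain ⟨z, hz, hzb⟩ := Set.mem_iUnion₂.1 (hcov ⟨_, hT _ m0, rfl⟩)
  rw [← hq] at hz
  obtain ⟨j, rfl⟩ := hz
  have mj := hpt _ (hW j).1 (hW j).2.1
  obtain ⟨i, hi⟩ := (hlab _ (hW j).1 (hW j).2.1).2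
  rw [(hW j).2.2] at hi
  have k1 : ‖E j + p i‖ < ‖Tm (pt (W 0)) + p i‖ + ε := by
    have := (dist_le_pi_dist _ _ i).trans_lt (Metric.mem_ball.1 hzb)
    rw [← hEq j, Real.dist_eq, abs_lt] at this
    simp only [Φ] at this
    linarith [this.1]
  have k2 : ‖pt (W 0) - pt (W j)‖ ≤ (n + 1) * (ε / ((|L| + 1) * (n + 1))) := by
    simp only [pt]
    rw [← Finset.sum_sub_distrib]
    refine (norm_sum_le _ _).trans ?_
    calc ∑ k, ‖W 0 k • E k - W j k • E k‖ ≤ ∑ _k : Fin (n + 1), ε / ((|L| + 1) * (n + 1)) := by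
          refine Finset.sum_le_sum fun k _ => ?_
          rw [← sub_smul, norm_smul, hu _ (hE k), mul_one]
          exact hcl 0 j k
      _ = _ := by simp
  have k3 := hlip _ _ (hu _ m0) (hu _ mj)
  have k4 : L * ‖pt (W 0) - pt (W j)‖ ≤ (|L| + 1) * ((n + 1) * (ε / ((|L| + 1) * (n + 1)))) := by
    gcongr
    linarith [le_abs_self L]
  rw [← mul_assoc, mul_div_cancel₀ _ hc.ne'] at k4
  have k5 : ‖Tm (pt (W 0)) + p i‖ ≤ ‖Tm (pt (W j)) + p i‖ + ‖Tm (pt (W 0)) - Tm (pt (W j))‖ := by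
    rw [show Tm (pt (W 0)) + p i = (Tm (pt (W j)) + p i) + (Tm (pt (W 0)) - Tm (pt (W j))) by abel]
    exact norm_add_le _ _
  linarith

theorem fix_line {A : Set V} (hcv : Convex ℝ A) (hne : A.Nonempty) (hu : ∀ e ∈ A, ‖e‖ = 1)
    (Tm : V → V) (hT : ∀ e ∈ A, Tm e ∈ A) {L : ℝ}
    (hlip : ∀ e₁ e₂, ‖e₁‖ = 1 → ‖e₂‖ = 1 → ‖Tm e₁ - Tm e₂‖ ≤ L * ‖e₁ - e₂‖)
    {y : V} (hy : ‖y‖ = 1) (R : ℝ) {ε : ℝ} (hε : 0 < ε) :
    ∃ e ∈ A, ∀ σ : ℝ, |σ| ≤ R → ‖e + σ • y‖ ≤ ‖Tm e + σ • y‖ + 4 * ε := by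
  obtain ⟨s, -, hfin, hcov⟩ := Metric.finite_approx_of_totallyBounded
    (isCompact_Icc (a := -R) (b := R)).totallyBounded ε hε
  have := hfin.fintype
  obtain ⟨e, he, h⟩ := fix_fin hcv hne hu Tm hT hlip (fun i : s => (i : ℝ) • y) hε
  refine ⟨e, he, fun σ hσ => ?_⟩
  obtain ⟨r, hr, hb⟩ := Set.mem_iUnion₂.1 (hcov (abs_le.1 hσ))
  have k := h ⟨r, hr⟩
  have kb : ‖(σ - r) • y‖ ≤ ε := by
    rw [norm_smul, hy, mul_one]
    exact (Metric.mem_ball.1 hb).le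
  have k1 : ‖e + σ • y‖ ≤ ‖e + r • y‖ + ‖(σ - r) • y‖ := by
    rw [show e + σ • y = (e + r • y) + (σ - r) • y by module]; exact norm_add_le _ _
  have k2 : ‖Tm e + r • y‖ ≤ ‖Tm e + σ • y‖ + ‖(σ - r) • y‖ := by
    rw [show Tm e + r • y = (Tm e + σ • y) - (σ - r) • y by module]; exact norm_sub_le _ _
  simp only at k
  linarith

end Vale.Agent.P084
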