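import Vale.Agent.P052.Tower

/-! An approximate Sperner (KKM) lemma on the standard simplex, from the odd cycle machinery. -/

namespace Vale.Agent.P084

open Vale.Agent.P052

/-- truncated absolute values -/
noncomputable def trunc (n : ℕ) (x : ℕ → ℝ) (i : Fin (n + 1)) : ℝ :=
  max (|x i| - 1 / (2 * ((n : ℝ) + 1))) 0

/-- retraction of the l1 sphere to the simplex -/
noncomputable def retr (n : ℕ) (x : ℕ → ℝ) (i : Fin (n + 1)) : ℝ :=
  trunc n x i / ∑ k, trunc n x k

theorem trunc_nonneg (n : ℕ) (x : ℕ → ℝ) (i : Fin (n + 1)) : 0 ≤ trunc n x i := le_max_right _ _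

theorem trunc_sum {n : ℕ} {x : ℕ → ℝ} (hx : ∑ i ∈ Finset.range (n + 1), |x i| = 1) :
    1 / 2 ≤ ∑ k, trunc n x k := by
  rw [← Fin.sum_univ_eq_sum_range (fun i => |x i|)] at hx
  have h1 : ∑ k : Fin (n + 1), (|x k| - 1 / (2 * ((n : ℝ) + 1))) ≤ ∑ k, trunc n x k :=
    Finset.sum_le_sum fun k _ => le_max_left _ _
  rw [Finset.sum_sub_distrib, hx] at h1
  simp only [Finset.sum_const, Finset.card_univ, Fintype.card_fin, nsmul_eq_mul] at h1
  have : ((n + 1 : ℕ) : ℝ) * (1 / (2 * ((n : ℝ) + 1))) = 1 / 2 := by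
    push_cast
    field_simp
  linarith

theorem retr_neg (n : ℕ) (x : ℕ → ℝ) : retr n (-x) = retr n x := by
  funext i
  simp [retr, trunc]

theorem retr_nonneg (n : ℕ) (x : ℕ → ℝ) (i : Fin (n + 1)) : 0 ≤ retr n x i :=
  div_nonneg (trunc_nonneg n x i) (Finset.sum_nonneg fun k _ => trunc_nonneg n x k)

theorem retr_sum {n : ℕ} {x : ℕ → ℝ} (hx : ∑ i ∈ Finset.range (n + 1), |x i| = 1) :
    ∑ i, retr n x i = 1 := by
  have := trunc_sum hx
  simp only [retr]
  rw [← Finset.sum_div, div_self]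
  linarith

theorem retr_pos {n : ℕ} {x : ℕ → ℝ} {i : Fin (n + 1)} (h : 0 < retr n x i) :
    1 / (2 * ((n : ℝ) + 1)) < |x i| := by
  by_contra hc
  push Not at hc
  have : trunc n x i = 0 := max_eq_right (by linarith)
  simp [retr, this] at h

theorem trunc_close {n : ℕ} {x y : ℕ → ℝ} {ε : ℝ} (h : ∀ i, |x i - y i| ≤ ε) (i : Fin (n + 1)) :
    |trunc n x i - trunc n y i| ≤ ε := by
  refine (abs_max_sub_max_le_abs _ _ _).trans ?_
  rw [sub_sub_sub_cancel_right]
  exact (abs_abs_sub_abs_le_abs_sub _ _).trans (h i)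

theorem retr_close {n : ℕ} {x y : ℕ → ℝ} {ε : ℝ} (hx : ∑ i ∈ Finset.range (n + 1), |x i| = 1)
    (hy : ∑ i ∈ Finset.range (n + 1), |y i| = 1) (h : ∀ i, |x i - y i| ≤ ε) (i : Fin (n + 1)) :
    |retr n x i - retr n y i| ≤ (2 * n + 4) * ε := by
  have sx := trunc_sum hx
  have sy := trunc_sum hy
  have hε : 0 ≤ ε := (abs_nonneg _).trans (h 0)
  set A := ∑ k, trunc n x k
  set B := ∑ k, trunc n y k
  have hAB : |B - A| ≤ (n + 1) * ε := by
    rw [abs_sub_comm]
    calc |A - B| = |∑ k, (trunc n x k - trunc n y k)| := by rw [Finset.sum_sub_distrib]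
      _ ≤ ∑ k, |trunc n x k - trunc n y k| := Finset.abs_sum_le_sum_abs _ _
      _ ≤ ∑ _k : Fin (n + 1), ε := Finset.sum_le_sum fun k _ => trunc_close h k
      _ = (n + 1) * ε := by simp
  have hb1 : retr n y i ≤ 1 := by
    rw [← retr_sum hy]
    exact Finset.single_le_sum (fun k _ => retr_nonneg n y k) (Finset.mem_univ i)
  have hb0 := retr_nonneg n y i
  have e : retr n x i - retr n y i =
      ((trunc n x i - trunc n y i) + retr n y i * (B - A)) / A := by
    change trunc n x i / A - trunc n y i / B =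
      ((trunc n x i - trunc n y i) + trunc n y i / B * (B - A)) / A
    have hA : A ≠ 0 := by linarith
    have hB : B ≠ 0 := by linarith
    field_simp
    ring
  rw [e, abs_div, abs_of_pos (by linarith : 0 < A), div_le_iff₀ (by linarith)]
  have h1 := trunc_close h i
  have h2 : |retr n y i * (B - A)| ≤ (n + 1) * ε := by
    rw [abs_mul, abs_of_nonneg hb0]
    nlinarith [abs_nonneg (B - A)]
  have h3 := abs_add_le (trunc n x i - trunc n y i) (retr n y i * (B - A))
  have h4 : 0 ≤ (2 * (n : ℝ) + 4) * ε := by positivity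
  nlinarith

theorem approx_sperner (n : ℕ) {δ : ℝ} (hδ : 0 < δ) (lab : (Fin (n + 1) → ℝ) → Fin (n + 1))
    (hlab : ∀ w : Fin (n + 1) → ℝ, (∀ i, 0 ≤ w i) → ∑ i, w i = 1 → 0 < w (lab w)) :
    ∃ W : Fin (n + 1) → (Fin (n + 1) → ℝ),
      (∀ j, (∀ i, 0 ≤ W j i) ∧ ∑ i, W j i = 1 ∧ lab (W j) = j) ∧
      ∀ j k i, |W j i - W k i| ≤ δ := by
  classical
  set η : ℝ := 1 / (2 * ((n : ℝ) + 1)) with hη
  have hη0 : 0 < η := by positivity
  set ε : ℝ := min η (δ / (2 * n + 4)) with hε
  have hε0 : 0 < ε := lt_min hη0 (by positivity)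
  obtain ⟨K⟩ := exists_KF n hε0
  let sph : (ℕ → ℝ) → Prop := fun x => ∑ i ∈ Finset.range (n + 1), |x i| = 1
  let ℓ : (ℕ → ℝ) → Fin (n + 1) × F := fun x =>
    (lab (retr n x), if 0 < x (lab (retr n x)) then 0 else 1)
  have big : ∀ x, sph x → η < |x (lab (retr n x))| := fun x hx =>
    retr_pos (hlab _ (retr_nonneg n x) (retr_sum hx))
  have hneg : ∀ x, sph x → ℓ (-x) = P052.flip (ℓ x) := by
    intro x hx
    have := big x hx
    simp only [ℓ, P052.flip, retr_neg, Pi.neg_apply, Prod.mk.injEq, true_and]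
    by_cases h : 0 < x (lab (retr n x))
    · rw [if_pos h, if_neg (by linarith)]
      rfl
    · have h' : x (lab (retr n x)) < 0 := by
        rcases lt_or_eq_of_le (not_lt.1 h) with h1 | h1
        · exact h1
        · rw [h1, abs_zero] at this
          linarith
      rw [if_neg h, if_pos (by linarith)]
      rfl
  let Adm : Multiset (Fin (n + 1) × F) → Prop := fun N =>
    ∃ c : Fin (n + 1) × F → (ℕ → ℝ), (∀ a ∈ N, sph (c a) ∧ ℓ (c a) = a) ∧
      ∀ a ∈ N, ∀ b ∈ N, ∀ i, |c a i - c b i| ≤ ε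
  have hA : AdmOK Adm := by
    refine ⟨?_, ?_, ?_⟩
    · rintro M N hle ⟨c, h1, h2⟩
      exact ⟨c, fun a ha => h1 a (Multiset.mem_of_le hle ha),
        fun a ha b hb => h2 a (Multiset.mem_of_le hle ha) b (Multiset.mem_of_le hle hb)⟩
    · rintro M ⟨c, h1, h2⟩
      refine ⟨fun a => -c (P052.flip a), ?_, ?_⟩
      · intro a ha
        obtain ⟨b, hb, rfl⟩ := Multiset.mem_map.1 ha
        simp only [P052.flip_flip]
        refine ⟨by simpa [sph] using (h1 b hb).1, ?_⟩
        rw [hneg _ (h1 b hb).1, (h1 b hb).2]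
      · intro a ha a' ha' i
        obtain ⟨b, hb, rfl⟩ := Multiset.mem_map.1 ha
        obtain ⟨b', hb', rfl⟩ := Multiset.mem_map.1 ha'
        simp only [P052.flip_flip, Pi.neg_apply]
        rw [show -c b i - -c b' i = -(c b i - c b' i) by ring, abs_neg]
        exact h2 b hb b' hb' i
    · rintro M ⟨c, h1, h2⟩ a ha b hb hab
      have ea := (h1 a ha).2
      have eb := (h1 b hb).2
      have ba := big _ (h1 a ha).1
      have bb := big _ (h1 b hb).1
      have la : lab (retr n (c a)) = a.1 := congrArg Prod.fst ea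
      have lb : lab (retr n (c b)) = a.1 := (congrArg Prod.fst eb).trans hab.symm
      have sa : (if 0 < c a (lab (retr n (c a))) then (0 : F) else 1) = a.2 := congrArg Prod.snd ea
      have sb : (if 0 < c b (lab (retr n (c b))) then (0 : F) else 1) = b.2 := congrArg Prod.snd eb
      rw [la] at ba sa
      rw [lb] at bb sb
      have cl := h2 a ha b hb a.1
      have hle : ε ≤ η := min_le_left _ _
      apply Prod.ext hab
      rw [← sa, ← sb]
      rw [abs_le] at cl
      by_cases p : 0 < c a a.1 <;> by_cases q : 0 < c b a.1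
      · rw [if_pos p, if_pos q]
      · rw [abs_of_pos p] at ba
        rw [abs_of_nonpos (not_lt.1 q)] at bb
        linarith [cl.2]
      · rw [abs_of_pos q] at bb
        rw [abs_of_nonpos (not_lt.1 p)] at ba
        linarith [cl.1]
      · rw [if_neg p, if_neg q]
  have K' : KF P052.flip Adm n := by
    refine K.push P052.flip Adm ℓ (fun M hM y hy => hneg y (hM.1 y hy)) ?_
    intro M hM
    have : ∀ a : Fin (n + 1) × F, ∃ x, a ∈ M.map ℓ → x ∈ M ∧ ℓ x = a := by
      intro a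
      by_cases ha : a ∈ M.map ℓ
      · obtain ⟨x, hx, hxa⟩ := Multiset.mem_map.1 ha
        exact ⟨x, fun _ => ⟨hx, hxa⟩⟩
      · exact ⟨0, fun h => absurd h ha⟩
    choose c hc using this
    exact ⟨c, fun a ha => ⟨hM.1 _ (hc a ha).1, (hc a ha).2⟩,
      fun a ha b hb i => hM.2 _ (hc a ha).1 _ (hc b hb).1 i⟩
  obtain ⟨R, hR, hRA, hcard, -⟩ := exists_top hA K'
  have hnd : (R.map Prod.fst).Nodup :=
    Multiset.Nodup.map_on (fun a ha b hb hab => hA.fn R hRA a ha b hb hab) hR
  have hall : ∀ j : Fin (n + 1), ∃ a ∈ R, a.1 = j := by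
    intro j
    have : (⟨R.map Prod.fst, hnd⟩ : Finset (Fin (n + 1))) = Finset.univ := by
      apply Finset.eq_univ_of_card
      simp [Finset.card, hcard]
    have hj : j ∈ (⟨R.map Prod.fst, hnd⟩ : Finset (Fin (n + 1))) := by
      rw [this]; exact Finset.mem_univ j
    simpa using hj
  choose a ha using hall
  obtain ⟨c, h1, h2⟩ := hRA
  refine ⟨fun j => retr n (c (a j)), fun j => ⟨retr_nonneg n _, retr_sum (h1 _ (ha j).1).1, ?_⟩, ?_⟩
  · exact (congrArg Prod.fst (h1 _ (ha j).1).2).trans (ha j).2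
  · intro j k i
    refine (retr_close (h1 _ (ha j).1).1 (h1 _ (ha k).1).1 (h2 _ (ha j).1 _ (ha k).1) i).trans ?_
    have : ε ≤ δ / (2 * n + 4) := min_le_right _ _
    rw [le_div_iff₀ (by positivity)] at this
    linarith

end Vale.Agent.P084
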