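import Vale.Agent.P084.Core

/-! Passing to an ultrapower, where the maximal defect is attained. -/

namespace Vale.Agent.P084

open Filter Topology

/-- limit along a fixed free ultrafilter -/
noncomputable def ul (s : ℕ → ℝ) : ℝ := limUnder (hyperfilter ℕ : Filter ℕ) s

theorem tendsto_ul {s : ℕ → ℝ} {C : ℝ} (h : ∀ n, |s n| ≤ C) :
    Tendsto s (hyperfilter ℕ : Filter ℕ) (𝓝 (ul s)) := by
  obtain ⟨a, -, ha⟩ := (isCompact_Icc (a := -C) (b := C)).ultrafilter_le_nhds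
    ((hyperfilter ℕ).map s) (by
      rw [le_principal_iff]
      exact mem_map.2 (univ_mem' fun n => abs_le.1 (h n)))
  exact tendsto_nhds_limUnder ⟨a, ha⟩

variable (X : Type*) [SeminormedAddCommGroup X] [NormedSpace ℝ X]

/-- bounded sequences -/
def bddSeq : Submodule ℝ (ℕ → X) where
  carrier := {x | ∃ C, ∀ n, ‖x n‖ ≤ C}
  add_mem' := by
    rintro a b ⟨C, hC⟩ ⟨D, hD⟩
    exact ⟨C + D, fun n => (norm_add_le _ _).trans (add_le_add (hC n) (hD n))⟩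
  zero_mem' := ⟨0, fun n => by simp⟩
  smul_mem' := by
    rintro c a ⟨C, hC⟩
    refine ⟨‖c‖ * C, fun n => ?_⟩
    rw [Pi.smul_apply, norm_smul]
    exact mul_le_mul_of_nonneg_left (hC n) (norm_nonneg _)

/-- the ultrapower, as a seminormed space -/
def UP : Type _ := bddSeq X

instance : AddCommGroup (UP X) := inferInstanceAs (AddCommGroup (bddSeq X))

instance : Module ℝ (UP X) := inferInstanceAs (Module ℝ (bddSeq X))

variable {X}

/-- the underlying sequence -/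
def UP.seq (x : UP X) : ℕ → X := (x : bddSeq X).1

theorem UP.lim (x : UP X) :
    Tendsto (fun n => ‖x.seq n‖) (hyperfilter ℕ : Filter ℕ) (𝓝 (ul fun n => ‖x.seq n‖)) := by
  obtain ⟨C, hC⟩ := (x : bddSeq X).2
  exact tendsto_ul (C := C) fun n => by rw [abs_norm]; exact hC n

/-- the limit seminorm -/
noncomputable def upN : AddGroupSeminorm (UP X) where
  toFun x := ul fun n => ‖x.seq n‖
  map_zero' := tendsto_nhds_unique (UP.lim 0) (by
    have : (fun n => ‖(0 : UP X).seq n‖) = fun _ => 0 := by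
      funext n; exact norm_zero
    rw [this]; exact tendsto_const_nhds)
  add_le' x y := le_of_tendsto_of_tendsto' (UP.lim (x + y)) ((UP.lim x).add (UP.lim y))
    fun n => norm_add_le (x.seq n) (y.seq n)
  neg' x := by
    congr 1
    funext n
    exact norm_neg (x.seq n)

noncomputable instance : SeminormedAddCommGroup (UP X) := upN.toSeminormedAddCommGroup

theorem UP.tn (x : UP X) :
    Tendsto (fun n => ‖x.seq n‖) (hyperfilter ℕ : Filter ℕ) (𝓝 ‖x‖) := x.lim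

noncomputable instance : NormedSpace ℝ (UP X) where
  norm_smul_le c x := le_of_tendsto_of_tendsto' (UP.tn (c • x)) ((UP.tn x).const_mul ‖c‖)
    fun n => norm_smul_le c (x.seq n)

theorem UP.tn' (x y : UP X) (c : ℝ) : Tendsto (fun n => ‖x.seq n - c • y.seq n‖)
    (hyperfilter ℕ : Filter ℕ) (𝓝 ‖x - c • y‖) := (x - c • y).tn

theorem UP.tn'' (x y : UP X) : Tendsto (fun n => ‖x.seq n - y.seq n‖)
    (hyperfilter ℕ : Filter ℕ) (𝓝 ‖x - y‖) := (x - y).tn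

/-- the class of a sequence of unit vectors -/
def UP.mk (s : ℕ → X) (h : ∀ n, ‖s n‖ = 1) : UP X := (⟨s, 1, fun n => (h n).le⟩ : bddSeq X)

theorem UP.mk_norm (s : ℕ → X) (h : ∀ n, ‖s n‖ = 1) : ‖UP.mk s h‖ = 1 :=
  tendsto_nhds_unique (UP.tn _) (by
    have : (fun n => ‖(UP.mk s h).seq n‖) = fun _ => 1 := funext h
    rw [this]; exact tendsto_const_nhds)

open Classical in
/-- normalisation -/
noncomputable def nz (x₀ w : X) : X := if ‖w‖ = 0 then x₀ else ‖w‖⁻¹ • w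

theorem nz_norm {x₀ : X} (h : ‖x₀‖ = 1) (w : X) : ‖nz x₀ w‖ = 1 := by
  unfold nz
  split_ifs with hw
  · exact h
  · rw [norm_smul, norm_inv, norm_norm, inv_mul_cancel₀ hw]

theorem nz_unit (x₀ : X) {w : X} (h : ‖w‖ = 1) : nz x₀ w = w := by
  simp [nz, h]

theorem nz_close {x₀ : X} (h : ‖x₀‖ = 1) (w : X) : ‖nz x₀ w - w‖ ≤ |‖w‖ - 1| := by
  unfold nz
  split_ifs with hw
  · have := norm_sub_le x₀ w
    rw [hw] at this ⊢
    norm_num
    linarith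
  · have e : ‖w‖⁻¹ • w - w = (1 - ‖w‖) • (‖w‖⁻¹ • w) := by
      rw [sub_smul, one_smul, smul_smul, mul_inv_cancel₀ hw, one_smul]
    rw [e, norm_smul, norm_smul, norm_inv, norm_norm, inv_mul_cancel₀ hw, mul_one,
      Real.norm_eq_abs, abs_sub_comm]

/-- normalisation in the ultrapower -/
noncomputable def nzU {x₀ : X} (h : ‖x₀‖ = 1) (x : UP X) : UP X :=
  UP.mk (fun n => nz x₀ (x.seq n)) fun _ => nz_norm h _

theorem nzU_null {x₀ : X} (h : ‖x₀‖ = 1) {x : UP X} (hx : ‖x‖ = 1) : ‖nzU h x - x‖ = 0 := by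
  refine le_antisymm ?_ (norm_nonneg _)
  have := ((UP.tn x).sub_const 1).abs
  rw [hx, sub_self, abs_zero] at this
  exact le_of_tendsto_of_tendsto' (UP.tn'' _ _) this fun n => nz_close h _

theorem nzU_sub {x₀ : X} (h : ‖x₀‖ = 1) {x y : UP X} (hx : ‖x‖ = 1) (hy : ‖y‖ = 1) (c : ℝ) :
    ‖nzU h x - c • nzU h y‖ = ‖x - c • y‖ := by
  rw [null_sub (nzU_null h hx), norm_sub_rev, norm_sub_rev x]
  apply null_sub
  rw [← smul_sub, norm_smul, nzU_null h hy, mul_zero]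

variable {Y : Type*} [SeminormedAddCommGroup Y] [NormedSpace ℝ Y]

/-- the induced map on ultrapowers -/
noncomputable def liftU {f : X → Y} (hf : ∀ x, ‖x‖ = 1 → ‖f x‖ = 1) {x₀ : X} (h : ‖x₀‖ = 1)
    (x : UP X) : UP Y :=
  UP.mk (fun n => f (nz x₀ (x.seq n))) fun _ => hf _ (nz_norm h _)

theorem Iso.lift {f : X → Y} {g : Y → X} (h : Iso f g) {x₀ : X} (h₀ : ‖x₀‖ = 1) :
    Iso (liftU h.unit h₀) (liftU h.gunit (h.unit _ h₀)) where
  unit _ _ := UP.mk_norm _ _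
  gunit _ _ := UP.mk_norm _ _
  iso x z hx hz := by
    have := nzU_sub h₀ hx hz 1
    rw [one_smul, one_smul] at this
    rw [← this]
    refine tendsto_nhds_unique (UP.tn'' _ _) ((UP.tn'' _ _).congr fun n => ?_)
    exact (h.iso _ _ (nz_norm h₀ _) (nz_norm h₀ _)).symm
  fg w hw := by
    rw [← nzU_null (h.unit _ h₀) hw]
    refine tendsto_nhds_unique (UP.tn'' _ _) ((UP.tn'' _ _).congr fun n => ?_)
    have k := nz_norm (h.unit _ h₀) (w.seq n)
    show ‖nz (f x₀) (w.seq n) - w.seq n‖ = ‖f (nz x₀ (g (nz (f x₀) (w.seq n)))) - w.seq n‖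
    rw [nz_unit _ (h.gunit _ k), null_sub (h.fg _ k)]

theorem Iso.upper {f : X → Y} {g : Y → X} (h : Iso f g) (x y : X) (τ : ℝ) (hx : ‖x‖ = 1)
    (hy : ‖y‖ = 1) (h0 : 0 ≤ τ) (h1 : τ ≤ 1) : ‖f x - τ • f y‖ ≤ ‖x - τ • y‖ + 0 := by
  by_contra hcon
  push Not at hcon
  let S : Set ℝ := {d | ∃ (x y : X) (τ : ℝ), ‖x‖ = 1 ∧ ‖y‖ = 1 ∧ 0 ≤ τ ∧ τ ≤ 1 ∧
    d = ‖f x - τ • f y‖ - ‖x - τ • y‖}
  have hb : BddAbove S := by
    refine ⟨2, ?_⟩
    rintro _ ⟨x, y, τ, hx, hy, h0, h1, rfl⟩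
    have := norm_sub_le (f x) (τ • f y)
    rw [norm_smul, h.unit _ hx, h.unit _ hy, Real.norm_of_nonneg h0] at this
    linarith [norm_nonneg (x - τ • y)]
  have hmem : ‖f x - τ • f y‖ - ‖x - τ • y‖ ∈ S := ⟨x, y, τ, hx, hy, h0, h1, rfl⟩
  set M := sSup S with hM
  have hM0 : 0 < M := lt_of_lt_of_le (by linarith) (le_csSup hb hmem)
  have bd : ∀ x y τ, ‖x‖ = 1 → ‖y‖ = 1 → (0 : ℝ) ≤ τ → τ ≤ 1 →
      ‖f x - τ • f y‖ ≤ ‖x - τ • y‖ + M := fun x y τ hx hy h0 h1 => by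
    linarith [le_csSup hb (show _ ∈ S from ⟨x, y, τ, hx, hy, h0, h1, rfl⟩)]
  have bdU : ∀ p q τ, ‖p‖ = 1 → ‖q‖ = 1 → (0 : ℝ) ≤ τ → τ ≤ 1 →
      ‖liftU h.unit hx p - τ • liftU h.unit hx q‖ ≤ ‖p - τ • q‖ + M := by
    intro p q τ hp hq h0 h1
    rw [← nzU_sub hx hp hq]
    exact le_of_tendsto_of_tendsto' (UP.tn' _ _ _) ((UP.tn' _ _ _).add_const M)
      fun n => bd _ _ τ (nz_norm hx _) (nz_norm hx _) h0 h1
  have : ∀ n : ℕ, ∃ (x y : X) (τ : ℝ), ‖x‖ = 1 ∧ ‖y‖ = 1 ∧ 0 ≤ τ ∧ τ ≤ 1 ∧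
      M - 1 / ((n : ℝ) + 1) < ‖f x - τ • f y‖ - ‖x - τ • y‖ := by
    intro n
    have : 0 < 1 / ((n : ℝ) + 1) := by positivity
    obtain ⟨_, ⟨x, y, τ, hx, hy, h0, h1, rfl⟩, hd⟩ :=
      exists_lt_of_lt_csSup ⟨_, hmem⟩ (show M - 1 / ((n : ℝ) + 1) < sSup S by linarith)
    exact ⟨x, y, τ, hx, hy, h0, h1, hd⟩
  choose xs ys ts hxs hys t0 t1 hd using this
  have tt : Tendsto ts (hyperfilter ℕ : Filter ℕ) (𝓝 (ul ts)) :=
    tendsto_ul (C := 1) fun n => abs_le.2 ⟨by linarith [t0 n], t1 n⟩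
  set t := ul ts
  have l0 : 0 ≤ t := ge_of_tendsto' tt t0
  have l1 : t ≤ 1 := le_of_tendsto' tt t1
  refine core (h.lift hx) hM0 bdU (UP.mk_norm xs hxs) (UP.mk_norm ys hys) l0 l1
    (le_antisymm (bdU _ _ t (UP.mk_norm xs hxs) (UP.mk_norm ys hys) l0 l1) ?_)
  have a1 : Tendsto (fun n : ℕ => 1 / ((n : ℝ) + 1)) (hyperfilter ℕ : Filter ℕ) (𝓝 0) :=
    tendsto_one_div_add_atTop_nhds_zero_nat.mono_left Nat.hyperfilter_le_atTop
  have a2 := (tt.sub_const t).abs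
  rw [sub_self, abs_zero] at a2
  have a3 := ((UP.tn' (liftU h.unit hx (UP.mk xs hxs)) (liftU h.unit hx (UP.mk ys hys)) t).add
    a1).add (a2.const_mul 2)
  rw [add_zero, mul_zero, add_zero] at a3
  refine le_of_tendsto_of_tendsto' ((UP.tn' _ _ _).add_const M) a3 fun n => ?_
  show ‖xs n - t • ys n‖ + M ≤ ‖f (nz x (xs n)) - t • f (nz x (ys n))‖ + _ + _
  rw [nz_unit _ (hxs n), nz_unit _ (hys n)]
  have k1 : ‖xs n - t • ys n‖ ≤ ‖xs n - ts n • ys n‖ + |ts n - t| := by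
    have := norm_add_le (xs n - ts n • ys n) ((ts n - t) • ys n)
    rwa [show xs n - ts n • ys n + (ts n - t) • ys n = xs n - t • ys n by module, norm_smul,
      hys n, mul_one] at this
  have k2 : ‖f (xs n) - ts n • f (ys n)‖ ≤ ‖f (xs n) - t • f (ys n)‖ + |ts n - t| := by
    have := norm_sub_le (f (xs n) - t • f (ys n)) ((ts n - t) • f (ys n))
    rwa [show f (xs n) - t • f (ys n) - (ts n - t) • f (ys n) = f (xs n) - ts n • f (ys n) by
      module, norm_smul, h.unit _ (hys n), mul_one] at this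
  linarith [hd n]

theorem Iso.exact {f : X → Y} {g : Y → X} (h : Iso f g) (x y : X) (τ : ℝ) (hx : ‖x‖ = 1)
    (hy : ‖y‖ = 1) (h0 : 0 ≤ τ) (h1 : τ ≤ 1) : ‖f x - τ • f y‖ = ‖x - τ • y‖ := by
  linarith [h.upper x y τ hx hy h0 h1, h.lower le_rfl h.upper x y τ hx hy h0 h1]

theorem Iso.scaled {f : X → Y} {g : Y → X} (h : Iso f g) (x y : X) {α β : ℝ} (hx : ‖x‖ = 1)
    (hy : ‖y‖ = 1) (hα : 0 ≤ α) (hβ : 0 ≤ β) : ‖α • f x - β • f y‖ = ‖α • x - β • y‖ := by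
  wlog hab : β ≤ α generalizing x y α β
  · rw [norm_sub_rev, this y x hy hx hβ hα (le_of_not_ge hab), norm_sub_rev]
  rcases hα.eq_or_lt with rfl | hα'
  · obtain rfl : β = 0 := le_antisymm hab hβ
    simp
  have e1 : α • f x - β • f y = α • (f x - (β / α) • f y) := by
    rw [smul_sub, smul_smul, mul_div_cancel₀ _ hα'.ne']
  have e2 : α • x - β • y = α • (x - (β / α) • y) := by
    rw [smul_sub, smul_smul, mul_div_cancel₀ _ hα'.ne']
  rw [e1, e2, norm_smul, norm_smul,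
    h.exact x y _ hx hy (by positivity) ((div_le_one hα').2 hab)]

end Vale.Agent.P084
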